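-- KEEP
import Claimed.Agent.R255.Base.Seq
import Claimed.Agent.R255.Ent.Basic

/-!
# Row 255 (BR paper), classical part, chapter TOOLS (Sec. 4.1-4.3), definitions      (chief helper216)

* `P.cnd E`        (Ent/Basic.lean) total version of the conditional law (`P` itself if `E` is null)
* `S.withLaw R`    same spaces and data, another law;  `S.condOn E = S.withLaw (S.P.cnd E)`   (`(S.condOn E).Ω` is DEFINITIONALLY `S.Ω`)
* `S.deficit γ ε t L G geo = β t + τ_L(T) - F_t(G)`
* `S.adjoin κ`     : the extension of `S` by a new label drawn from a kernel `κ : Ker S.Ω Γ` (space `S.Ω × Γ`; old observations are composed with `Prod.fst`, the new label is `Prod.snd`)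
* `Geo.scale h g`  : depths divided by `h` (change of the small parameter `ε ↦ ε^h`; EXACT: `tlev (ε^h) (d/h) = tlev ε d`)
* localisation (Lemma 4.5): `locJ` (the label `J`), `S.loc` (the rescaled conditional system)
-/

set_option autoImplicit false

namespace Claimed.Agent.R255

open Classical

namespace CSys

/-- the same system with another law -/
def withLaw (S : CSys) (R : FLaw S.Ω) : CSys := { S with P := R }

/-- the conditional system -/
noncomputable def condOn (S : CSys) (E : S.Ω → Prop) : CSys := S.withLaw (S.P.cnd E)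

/-- the deficit `β t + τ_L(T) - F_t(G)` -/
noncomputable def deficit (S : CSys) (γ ε t L : ℝ) {Γ : Type} (G : S.Ω → Γ) (geo : Γ → Geo) : ℝ :=
  beta γ * t + S.tau γ ε L - S.score γ ε t G geo

/-- adjoin a label by a kernel -/
noncomputable def adjoin (S : CSys) {Γ : Type} [Fintype Γ] (κ : FLaw.Ker S.Ω Γ) : CSys where
  Ω := S.Ω × Γ
  fin := inferInstance
  P := S.P.ext κ
  ι := S.ι
  T := fun x => S.T x.1
  V := S.V
  A := S.A
  c := fun x => S.c x.1

end CSys

/-- depths divided by `h` -/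
noncomputable def Geo.scale (h : ℝ) (g : Geo) : Geo := { g with b := g.b / h, a := g.a / h }

/-! ## localisation -/

/-- parameters of a localisation: common depth `b`, orientation depth `d`, time depth `r` -/
structure LocPar where
  b : ℝ
  d : ℝ
  r : ℝ

/-- the label `J` of Lemma 4.5, computed from the data `(V, A, c)` and the angle `th` of the final label:
`(C_r, [th]_d, [V·t_J]_b, [V·n_J]_(b+d), [(A + c_J V)·t_J]_(b+r), [(A + c_J V)·n_J]_(b+d+r))`, frame `th_J = trep ε d th`, `c_J = trep ε r c` -/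
noncomputable def locJ (ε : ℝ) (p : LocPar) (V A : ℝ × ℝ) (c th : ℝ) : ℤ × ℤ × ℤ × ℤ × ℤ × ℤ :=
  (tcell ε p.r c, tcell ε p.d th,
    tcell ε p.b (ip V (tang (trep ε p.d th))), tcell ε (p.b + p.d) (ip V (nrm (trep ε p.d th))),
    tcell ε (p.b + p.r) (ip (A + trep ε p.r c • V) (tang (trep ε p.d th))),
    tcell ε (p.b + p.d + p.r) (ip (A + trep ε p.r c • V) (nrm (trep ε p.d th))))

/-- the representative of a cell index at depth `d` -/
noncomputable def crep (ε d : ℝ) (k : ℤ) : ℝ := (k : ℝ) / 2 ^ (tlev ε d)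

/-- local velocity `v' = S⁻¹ (V - v_J)` in the cell `j` -/
noncomputable def locV (ε : ℝ) (p : LocPar) (j : ℤ × ℤ × ℤ × ℤ × ℤ × ℤ) (V : ℝ × ℝ) : ℝ × ℝ :=
  ((ip V (tang (crep ε p.d j.2.1)) - crep ε p.b j.2.2.1) / ε ^ p.b,
    (ip V (nrm (crep ε p.d j.2.1)) - crep ε (p.b + p.d) j.2.2.2.1) / ε ^ (p.b + p.d))

/-- local intercept `a' = ε^(-r) S⁻¹ (A + c_J V - x_J)` in the cell `j` -/
noncomputable def locA (ε : ℝ) (p : LocPar) (j : ℤ × ℤ × ℤ × ℤ × ℤ × ℤ) (V A : ℝ × ℝ) : ℝ × ℝ :=
  ((ip (A + crep ε p.r j.1 • V) (tang (crep ε p.d j.2.1)) - crep ε (p.b + p.r) j.2.2.2.2.1)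
      / ε ^ (p.b + p.r),
    (ip (A + crep ε p.r j.1 • V) (nrm (crep ε p.d j.2.1)) - crep ε (p.b + p.d + p.r) j.2.2.2.2.2)
      / ε ^ (p.b + p.d + p.r))

/-- local time `c' = ε^(-r) (c - c_J)` -/
noncomputable def locC (ε : ℝ) (p : LocPar) (j : ℤ × ℤ × ℤ × ℤ × ℤ × ℤ) (c : ℝ) : ℝ :=
  (c - crep ε p.r j.1) / ε ^ p.r

/-- the observation `J` of a system carrying an angle observation `th` -/
noncomputable def CSys.J (S : CSys) (ε : ℝ) (p : LocPar) (th : S.Ω → ℝ) : S.Ω → ℤ × ℤ × ℤ × ℤ × ℤ × ℤ :=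
  fun ω => locJ ε p (S.V (S.T ω)) (S.A (S.T ω)) (S.c ω) (th ω)

/-- the rescaled conditional system in the cell `J = j` -/
noncomputable def CSys.loc (S : CSys) (ε : ℝ) (p : LocPar) (th : S.Ω → ℝ)
    (j : ℤ × ℤ × ℤ × ℤ × ℤ × ℤ) : CSys where
  Ω := S.Ω
  fin := S.fin
  P := S.P.cnd (fun ω => S.J ε p th ω = j)
  ι := S.ι
  T := S.T
  V := fun i => locV ε p j (S.V i)
  A := fun i => locA ε p j (S.V i) (S.A i)
  c := fun ω => locC ε p j (S.c ω)

/-- change of the small parameter: the system is unchanged, `ε` becomes `ε^h` (depths, weights, entropies are divided by `h`) -/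
theorem lg_rpow (ε h : ℝ) (hε : 0 < ε) : lg (ε ^ h) = h * lg ε := by
  unfold lg
  rw [one_div, one_div, Real.log_inv, Real.log_inv, Real.log_rpow hε]
  ring

end Claimed.Agent.R255
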