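-- KEEP
import Claimed.Agent.R255.Cl.ToolsFin
import Claimed.Agent.R255.Cl.Tools.Master

/-!
# Row 255 (BR paper), classical part, chapter TOOLS, SEQUENCE LEVEL: selection of typical parts      (chief helper216; prefix `ts_`)

A PART of a sequence `Q` is the conditional sequence on the fibre of a tag `Z n` through a selected sample point `ω₀ n`:  `Q.part Z ω₀`.
(No law on the set of tags is needed: "a set of parts of mass `→ 1`" is an event `Gd n : (Q.S n).Ω → Prop` of mass `→ 1`, "select a part" = select `ω₀ n` in it.)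
All spaces stay DEFINITIONALLY the same, so observations and labels of `Q` are observations and labels of every part.

* `ts_select`        the abstract Markov + diagonal selection (countably many functionals)
* `ts_typ_inter`, `ts_pick`   countably many typical sets contain one; a selection inside a typical set and a set of mass `≥ c`
* `ts_*_typ`         what typical parts of a tag with `H(Z)/ℓ → 0` inherit: saturation (L4.3), zero conditional entropies, null events, zero conditional informations, homogeneity with the same exponent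
* `ts_master_tag`    L2.4 + L2.9(1) + L4.4: ONE tag whose typical parts are homogeneous for a prescribed countable list and cap regular
PACKAGES: TS-SELECT (`ts_select`, `ts_pick`, Mathlib + Base/Ulim only), TS-TYP (`ts_*_typ`), TS-MASTER (`ts_master_tag`).
-/

set_option autoImplicit false

namespace Claimed.Agent.R255

open Filter Topology
open Classical

/-! ## definitions -/

theorem ts_cnd_supp {Ω : Type} [Fintype Ω] (P : FLaw Ω) (E : Ω → Prop) (ω : Ω) (h : 0 < (P.cnd E).p ω) :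
    0 < P.p ω := by
  unfold FLaw.cnd at h
  split_ifs at h with hE
  · have h2 : 0 < (if E ω then P.p ω else 0) / P.pr E := h
    have h3 : 0 < (if E ω then P.p ω else 0) := by
      by_contra hc
      push Not at hc
      exact absurd h2 (not_lt.2 (div_nonpos_of_nonpos_of_nonneg hc hE.le))
    split_ifs at h3 with h4
    · exact h3
    · exact absurd h3 (lt_irrefl 0)
  · exact h

theorem ts_bdd_condOn (S : CSys) (B : ℝ) (hB : S.Bdd B) (E : S.Ω → Prop) : (S.condOn E).Bdd B :=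
  fun ω hω => hB ω (ts_cnd_supp S.P E ω hω)

namespace CSeq

/-- the conditional sequence -/
noncomputable def condOn (Q : CSeq) (E : ∀ n, (Q.S n).Ω → Prop) : CSeq where
  ε := Q.ε
  S := fun n => (Q.S n).condOn (E n)
  pos := Q.pos
  lim := Q.lim
  B := Q.B
  bdd := Q.bdd.mono fun n h => ts_bdd_condOn (Q.S n) Q.B h (E n)

/-- the part of `Q` through the selected points -/
noncomputable def part (Q : CSeq) {ζ : ℕ → Type} (Z : Q.Obs ζ) (ω₀ : ∀ n, (Q.S n).Ω) : CSeq :=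
  Q.condOn (fun n ω => Z n ω = Z n (ω₀ n))

/-- a sequence of events has mass tending to one -/
def Typ (Q : CSeq) (Gd : ∀ n, (Q.S n).Ω → Prop) : Prop :=
  Tendsto (fun n => (Q.S n).P.pr (Gd n)) uf (𝓝 1)

/-- a selection of points in a sequence of events -/
def Sel (Q : CSeq) (Gd : ∀ n, (Q.S n).Ω → Prop) (ω₀ : ∀ n, (Q.S n).Ω) : Prop :=
  ∀ᶠ n in uf, Gd n (ω₀ n)

/-- the alphabet of `Y` (on the support) has at most `ε^(-A)` elements -/
def Alph (Q : CSeq) {α : ℕ → Type} (Y : Q.Obs α) (A : ℝ) : Prop :=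
  ∀ᶠ n in uf, ∃ F : Finset (α n), (F.card : ℝ) ≤ (Q.ε n) ^ (- A) ∧ ∀ ω, 0 < (Q.S n).P.p ω → Y n ω ∈ F

/-- the sequence of deficits of a sequence of labels -/
noncomputable def dfc (Q : CSeq) (γ t L : ℝ) {Γ : ℕ → Type} (G : Q.Obs Γ) (geo : ∀ n, Γ n → Geo) : ℕ → ℝ :=
  fun n => (Q.S n).deficit γ (Q.ε n) t L (G n) (geo n)

/-- a sequence of labels -/
def IsLab (Q : CSeq) (K t L : ℝ) {Γ : ℕ → Type} (G : Q.Obs Γ) (geo : ∀ n, Γ n → Geo) : Prop :=
  ∀ᶠ n in uf, (Q.S n).IsLabel K (Q.ε n) t L (G n) (geo n)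

end CSeq

/-! ## TS-SELECT -/

/-- Markov for one functional bounded below by `-ν` with mean `≤ ν` -/
theorem ts_markov_one {Ω : Type} [Fintype Ω] (P : FLaw Ω) (g : Ω → ℝ) (δ ν : ℝ) (hδ : 0 < δ) (hν : 0 ≤ ν)
    (hνδ : ν ≤ δ) (hlow : ∀ ω, 0 < P.p ω → - ν ≤ g ω) (hmean : P.ev g ≤ ν) :
    1 - P.pr (fun ω => |g ω| ≤ δ) ≤ 2 * ν / δ := by
  rw [← ent_pr_not]
  have hpos : ∀ ω, P.p ω ≠ 0 → 0 < P.p ω := fun ω h => lt_of_le_of_ne (P.nonneg ω) (Ne.symm h)
  have h1 : P.pr (fun ω => ¬ |g ω| ≤ δ) ≤ P.pr (fun ω => δ ≤ g ω + ν) := by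
    refine ent_pr_mono P fun ω hω h => ?_
    have h2 := hlow ω (hpos ω hω)
    by_contra hcon
    push Not at hcon
    exact h (abs_le.2 ⟨by linarith, by linarith⟩)
  have h2 : P.pr (fun ω => δ ≤ g ω + ν) ≤ P.ev (fun ω => g ω + ν) / δ :=
    ent_markov P (fun ω hω => by have := hlow ω (hpos ω hω); linarith) hδ
  have h3 : P.ev (fun ω => g ω + ν) = P.ev g + ν := by
    unfold FLaw.ev
    simp only [mul_add, Finset.sum_add_distrib, ← Finset.sum_mul, P.sum_one, one_mul]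
  rw [h3] at h2
  refine h1.trans (h2.trans ?_)
  exact div_le_div_of_nonneg_right (by linarith) hδ.le

/-- Markov + union bound for finitely many functionals -/
theorem ts_markov_fin {Ω : Type} [Fintype Ω] (P : FLaw Ω) (k : ℕ) (g : ℕ → Ω → ℝ) (δ ν : ℝ) (hδ : 0 < δ)
    (hν : 0 ≤ ν) (hνδ : ν ≤ δ) (hlow : ∀ i < k, ∀ ω, 0 < P.p ω → - ν ≤ g i ω)
    (hmean : ∀ i < k, P.ev (g i) ≤ ν) :
    1 - k * (2 * ν / δ) ≤ P.pr (fun ω => 0 < P.p ω ∧ ∀ i < k, |g i ω| ≤ δ) := by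
  have h1 := ent_pr_forall_ge P (Finset.range k) (fun i ω => |g i ω| ≤ δ)
  have h2 : P.pr (fun ω => ∀ i ∈ Finset.range k, |g i ω| ≤ δ)
      = P.pr (fun ω => 0 < P.p ω ∧ ∀ i < k, |g i ω| ≤ δ) := by
    refine ent_pr_congr P fun ω hω => ?_
    have hp : 0 < P.p ω := lt_of_le_of_ne (P.nonneg ω) (Ne.symm hω)
    simp only [Finset.mem_range, hp, true_and]
  rw [h2] at h1
  have h3 : ∑ i ∈ Finset.range k, (1 - P.pr (fun ω => |g i ω| ≤ δ)) ≤ ∑ _i ∈ Finset.range k, 2 * ν / δ :=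
    Finset.sum_le_sum fun i hi =>
      ts_markov_one P (g i) δ ν hδ hν hνδ (hlow i (Finset.mem_range.1 hi)) (hmean i (Finset.mem_range.1 hi))
  rw [Finset.sum_const, Finset.card_range, nsmul_eq_mul] at h3
  linarith

/-- `1/(κ n + 1) → 0` along the ultrafilter when `κ → ∞` -/
theorem ts_inv_tendsto (κ : ℕ → ℕ) (hκ : Tendsto κ uf atTop) :
    Tendsto (fun n => (1 : ℝ) / ((κ n : ℝ) + 1)) uf (𝓝 0) :=
  (tendsto_one_div_add_atTop_nhds_zero_nat (𝕜 := ℝ)).comp hκ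

/-- **abstract selection**: countably many functionals, asymptotically nonnegative, with asymptotically nonpositive means, tend to zero at every selection of points in suitable events of mass `→ 1` -/
theorem ts_select {Ω : ℕ → Type} [∀ n, Fintype (Ω n)] (P : ∀ n, FLaw (Ω n)) (f : ℕ → ∀ n, Ω n → ℝ)
    (hlow : ∀ i ν, 0 < ν → ∀ᶠ n in uf, ∀ ω, 0 < (P n).p ω → - ν ≤ f i n ω)
    (hmean : ∀ i ν, 0 < ν → ∀ᶠ n in uf, (P n).ev (f i n) ≤ ν) :
    ∃ Gd : ∀ n, Ω n → Prop, Tendsto (fun n => (P n).pr (Gd n)) uf (𝓝 1) ∧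
      ∀ ω₀ : ∀ n, Ω n, (∀ᶠ n in uf, Gd n (ω₀ n)) → ∀ i, Tendsto (fun n => f i n (ω₀ n)) uf (𝓝 0) := by
  have hgood : ∀ k : ℕ, ∀ᶠ n in uf, 1 - 1 / ((k : ℝ) + 1)
      ≤ (P n).pr (fun ω => 0 < (P n).p ω ∧ ∀ i < k, |f i n ω| ≤ 1 / ((k : ℝ) + 1)) := by
    intro k
    have hk : (0 : ℝ) < (k : ℝ) + 1 := by positivity
    set δ : ℝ := 1 / ((k : ℝ) + 1) with hδdef
    have hδ : 0 < δ := by positivity
    have hδ1 : δ ≤ 1 := by
      rw [hδdef, div_le_one hk]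
      have : (0 : ℝ) ≤ (k : ℝ) := Nat.cast_nonneg k
      linarith
    have hkδ : (k : ℝ) * δ ≤ 1 := by
      rw [hδdef, mul_one_div, div_le_one hk]
      linarith
    set ν : ℝ := δ ^ 3 / 2 with hνdef
    have hν : 0 < ν := by positivity
    have hνδ : ν ≤ δ := by
      have h2 : δ ^ 3 ≤ δ := by
        calc δ ^ 3 = δ * (δ * δ) := by ring
          _ ≤ δ * (1 * 1) := by
              refine mul_le_mul_of_nonneg_left ?_ hδ.le
              exact mul_le_mul hδ1 hδ1 hδ.le zero_le_one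
          _ = δ := by ring
      rw [hνdef]
      linarith
    have h1 : ∀ᶠ n in uf, ∀ i ∈ Finset.range k, ∀ ω, 0 < (P n).p ω → - ν ≤ f i n ω :=
      (eventually_all_finset _).2 fun i _ => hlow i ν hν
    have h2 : ∀ᶠ n in uf, ∀ i ∈ Finset.range k, (P n).ev (f i n) ≤ ν :=
      (eventually_all_finset _).2 fun i _ => hmean i ν hν
    filter_upwards [h1, h2] with n hn1 hn2
    have h3 := ts_markov_fin (P n) k (fun i => f i n) δ ν hδ hν.le hνδ
      (fun i hi => hn1 i (Finset.mem_range.2 hi)) (fun i hi => hn2 i (Finset.mem_range.2 hi))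
    refine le_trans ?_ h3
    have h4 : (k : ℝ) * (2 * ν / δ) = ((k : ℝ) * δ) * δ := by
      rw [hνdef]
      field_simp
    rw [h4]
    have h5 : ((k : ℝ) * δ) * δ ≤ 1 * δ := mul_le_mul_of_nonneg_right hkδ hδ.le
    linarith
  obtain ⟨κ, hκ, hκg⟩ := ulim_diag _ hgood
  have hinv := ts_inv_tendsto κ hκ
  refine ⟨fun n ω => 0 < (P n).p ω ∧ ∀ i < κ n, |f i n ω| ≤ 1 / ((κ n : ℝ) + 1), ?_, ?_⟩
  · have hlo : Tendsto (fun n => (1 : ℝ) - 1 / ((κ n : ℝ) + 1)) uf (𝓝 1) := by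
      simpa using (tendsto_const_nhds (x := (1 : ℝ))).sub hinv
    exact tendsto_of_tendsto_of_tendsto_of_le_of_le' hlo tendsto_const_nhds hκg
      (Eventually.of_forall fun n => ent_pr_le_one (P n) _)
  · intro ω₀ hω₀ i
    refine squeeze_zero_norm' ?_ hinv
    filter_upwards [hω₀, hκ.eventually (eventually_gt_atTop i)] with n hn hi
    rw [Real.norm_eq_abs]
    exact hn.2 i hi

/-- countably many typical sequences of events contain one typical sequence (diagonal) -/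
theorem ts_typ_inter {Ω : ℕ → Type} [∀ n, Fintype (Ω n)] (P : ∀ n, FLaw (Ω n))
    (Gd : ℕ → ∀ n, Ω n → Prop) (h : ∀ i, Tendsto (fun n => (P n).pr (Gd i n)) uf (𝓝 1)) :
    ∃ Gd' : ∀ n, Ω n → Prop, Tendsto (fun n => (P n).pr (Gd' n)) uf (𝓝 1) ∧
      ∀ ω₀ : ∀ n, Ω n, (∀ᶠ n in uf, Gd' n (ω₀ n)) → ∀ i, ∀ᶠ n in uf, Gd i n (ω₀ n) := by
  have hev : ∀ i n, (P n).ev (fun ω => if Gd i n ω then (0 : ℝ) else 1) = 1 - (P n).pr (Gd i n) := by
    intro i n
    rw [← ent_pr_not]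
    unfold FLaw.ev FLaw.pr
    refine Finset.sum_congr rfl fun ω _ => ?_
    by_cases hG : Gd i n ω <;> simp [hG]
  obtain ⟨Gd', h1, h2⟩ := ts_select P (fun i n ω => if Gd i n ω then (0 : ℝ) else 1)
    (fun i ν hν => Eventually.of_forall fun n ω _ => by
      show - ν ≤ if Gd i n ω then (0 : ℝ) else 1
      split_ifs <;> linarith)
    (fun i ν hν => by
      have h3 : ∀ᶠ n in uf, 1 - ν < (P n).pr (Gd i n) :=
        (h i).eventually (lt_mem_nhds (by linarith))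
      filter_upwards [h3] with n hn
      rw [hev]
      linarith)
  refine ⟨Gd', h1, fun ω₀ hω₀ i => ?_⟩
  have h3 := (h2 ω₀ hω₀ i).eventually (gt_mem_nhds (show (0 : ℝ) < 1 / 2 by norm_num))
  filter_upwards [h3] with n hn
  by_contra hG
  rw [if_neg hG] at hn
  norm_num at hn

/-- a selection of points of positive mass inside a typical sequence of events and a sequence of events of mass `≥ c > 0` -/
theorem ts_pick {Ω : ℕ → Type} [∀ n, Fintype (Ω n)] (P : ∀ n, FLaw (Ω n)) (Gd A : ∀ n, Ω n → Prop)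
    (h : Tendsto (fun n => (P n).pr (Gd n)) uf (𝓝 1)) (c : ℝ) (hc : 0 < c)
    (hA : ∀ᶠ n in uf, c ≤ (P n).pr (A n)) :
    ∃ ω₀ : ∀ n, Ω n, ∀ᶠ n in uf, Gd n (ω₀ n) ∧ A n (ω₀ n) ∧ 0 < (P n).p (ω₀ n) := by
  have hne : ∀ n, Nonempty (Ω n) := by
    intro n
    by_contra hcon
    rw [not_nonempty_iff] at hcon
    have h1 := (P n).sum_one
    rw [Finset.univ_eq_empty, Finset.sum_empty] at h1
    exact zero_ne_one h1
  have hex : ∀ᶠ n in uf, ∃ ω, Gd n ω ∧ A n ω ∧ 0 < (P n).p ω := by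
    have h3 : ∀ᶠ n in uf, 1 - c < (P n).pr (Gd n) := h.eventually (lt_mem_nhds (by linarith))
    filter_upwards [h3, hA] with n hn1 hn2
    have h4 := ent_pr_and_ge (P n) (Gd n) (A n)
    have h5 : 0 < (P n).pr (fun ω => Gd n ω ∧ A n ω) := by linarith
    obtain ⟨ω, ⟨hG, hAω⟩, hp⟩ := (ent_pr_pos_iff (P n) _).1 h5
    exact ⟨ω, hG, hAω, lt_of_le_of_ne ((P n).nonneg ω) (Ne.symm hp)⟩
  refine ⟨fun n => if hn : ∃ ω, Gd n ω ∧ A n ω ∧ 0 < (P n).p ω then hn.choose else (hne n).some, ?_⟩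
  filter_upwards [hex] with n hn
  simp only [dif_pos hn]
  exact hn.choose_spec

/-! ## TS-TYP : typical parts of a tag of vanishing normalised entropy -/

/-- universality along sequences of systems: deficits are asymptotically nonnegative, UNIFORMLY over all conditional systems -/
theorem ts_dfc_low (γ : ℝ) (h0 : 0 < γ) (h1 : γ < 1) (Q : CSeq) (K t L : ℝ) (ht : 0 < t) (htL : t ≤ L)
    {Γ : ℕ → Type} (G : Q.Obs Γ) (geo : ∀ n, Γ n → Geo) (hG : Q.IsLab K t L G geo) (ν : ℝ) (hν : 0 < ν) :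
    ∀ᶠ n in uf, ∀ E : (Q.S n).Ω → Prop, - ν ≤ ((Q.S n).condOn E).deficit γ (Q.ε n) t L (G n) (geo n) := by
  obtain ⟨ε₀, hε₀, -, hU⟩ := tl_univBound_beta γ h0 h1 K Q.B L t ν ht hν
  have hlim : ∀ᶠ n in uf, Q.ε n < ε₀ := Q.lim.eventually_lt_const hε₀
  filter_upwards [hlim, Q.bdd, hG] with n hn hB hL E
  have h := hU (Q.ε n) (Q.pos n).1 hn t L le_rfl htL le_rfl ((Q.S n).condOn E) (Γ n) (G n) (geo n)
    (ts_bdd_condOn (Q.S n) Q.B hB E) (fun ω hω => hL ω (ts_cnd_supp (Q.S n).P E ω hω))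
  unfold CSys.deficit
  linarith

/-- Lemma 4.3, last assertion: typical parts stay saturated, simultaneously for countably many labels -/
theorem ts_sat_typ (γ : ℝ) (h0 : 0 < γ) (h1 : γ < 1) (Q : CSeq) {ζ : ℕ → Type} (Z : Q.Obs ζ) (hZ : Q.toH Z 0)
    (K t L : ℕ → ℝ) (ht : ∀ i, 0 < t i) (htL : ∀ i, t i ≤ L i) (Γ : ℕ → ℕ → Type) (G : ∀ i, Q.Obs (Γ i))
    (geo : ∀ i n, Γ i n → Geo) (hG : ∀ i, Q.IsLab (K i) (t i) (L i) (G i) (geo i))
    (hsat : ∀ i, Tendsto (Q.dfc γ (t i) (L i) (G i) (geo i)) uf (𝓝 0)) :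
    ∃ Gd, Q.Typ Gd ∧ ∀ ω₀, Q.Sel Gd ω₀ →
      ∀ i, Tendsto ((Q.part Z ω₀).dfc γ (t i) (L i) (G i) (geo i)) uf (𝓝 0) := by
  have hmean : ∀ i ν, 0 < ν → ∀ᶠ n in uf, (Q.S n).P.ev (fun ω =>
      ((Q.S n).condOn (fun ω' => Z n ω' = Z n ω)).deficit γ (Q.ε n) (t i) (L i) (G i n) (geo i n)) ≤ ν := by
    intro i ν hν
    have h2 : Tendsto (fun n => Q.dfc γ (t i) (L i) (G i) (geo i) n + 3 * Q.seqH Z n) uf (𝓝 (0 + 3 * 0)) :=
      (hsat i).add (Tendsto.const_mul 3 hZ)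
    have h3 : ∀ᶠ n in uf, Q.dfc γ (t i) (L i) (G i) (geo i) n + 3 * Q.seqH Z n < ν :=
      h2.eventually_lt_const (by simpa using hν)
    filter_upwards [h3, Q.bdd] with n hn hB
    have h4 := tl_split_deficit (Q.S n) Q.B γ (Q.ε n) (t i) (L i) hB h0 h1 (Q.pos n).1 (Q.pos n).2
      ((ht i).le.trans (htL i)) (Γ i n) (G i n) (geo i n) (ζ n) (Z n)
    have h5 : Q.dfc γ (t i) (L i) (G i) (geo i) n + 3 * Q.seqH Z n =
        (Q.S n).deficit γ (Q.ε n) (t i) (L i) (G i n) (geo i n) + 3 * (Q.S n).P.ent (Z n) / lg (Q.ε n) := by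
      unfold CSeq.dfc CSeq.seqH
      ring
    linarith
  obtain ⟨Gd, hGd, hsel⟩ := ts_select (fun n => (Q.S n).P)
    (fun i n ω => ((Q.S n).condOn (fun ω' => Z n ω' = Z n ω)).deficit γ (Q.ε n) (t i) (L i) (G i n) (geo i n))
    (fun i ν hν => (ts_dfc_low γ h0 h1 Q (K i) (t i) (L i) (ht i) (htL i) (G i) (geo i) (hG i) ν hν).mono
      fun n h ω _ => h _) hmean
  exact ⟨Gd, hGd, fun ω₀ h i => hsel ω₀ h i⟩

/-- labels stay labels on every part -/
theorem ts_isLab_condOn (Q : CSeq) (E : ∀ n, (Q.S n).Ω → Prop) (K t L : ℝ) {Γ : ℕ → Type} (G : Q.Obs Γ)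
    (geo : ∀ n, Γ n → Geo) (hG : Q.IsLab K t L G geo) : (Q.condOn E).IsLab K t L G geo := by
  exact hG.mono fun n h ω hω => h ω (ts_cnd_supp (Q.S n).P (E n) ω hω)

/-- zero conditional entropies (no hypothesis on the tag) -/
theorem ts_zero_typ (Q : CSeq) {ζ : ℕ → Type} (Z : Q.Obs ζ) (α β : ℕ → ℕ → Type) (Y : ∀ j, Q.Obs (α j))
    (X : ∀ j, Q.Obs (β j)) (h : ∀ j, Q.toHC (Y j) (X j) 0) :
    ∃ Gd, Q.Typ Gd ∧ ∀ ω₀, Q.Sel Gd ω₀ → ∀ j, (Q.part Z ω₀).toHC (Y j) (X j) 0 := by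
  have hlg : ∀ n, 0 < lg (Q.ε n) := fun n => tl_lg_pos (Q.pos n).1 (Q.pos n).2
  have hmean : ∀ j ν, 0 < ν → ∀ᶠ n in uf, (Q.S n).P.ev (fun ω =>
      ((Q.S n).P.cfib (Z n) ω).entC (Y j n) (X j n) / lg (Q.ε n)) ≤ ν := by
    intro j ν hν
    have h3 : ∀ᶠ n in uf, Q.seqHC (Y j) (X j) n < ν := (h j).eventually_lt_const hν
    filter_upwards [h3] with n hn
    have h4 : (Q.S n).P.ev (fun ω => ((Q.S n).P.cfib (Z n) ω).entC (Y j n) (X j n) / lg (Q.ε n)) =
        (Q.S n).P.entC (Y j n) (FLaw.pair (X j n) (Z n)) / lg (Q.ε n) := by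
      rw [ent_entC_pair_eq_avg, div_eq_mul_inv, mul_comm, ← ent_ev_mul_left]
      exact congrArg _ (funext fun ω => by rw [div_eq_mul_inv, mul_comm])
    rw [h4]
    have h5 : (Q.S n).P.entC (Y j n) (FLaw.pair (X j n) (Z n)) / lg (Q.ε n) ≤ Q.seqHC (Y j) (X j) n :=
      div_le_div_of_nonneg_right (ent_entC_pair_le _ _ _ _) (hlg n).le
    linarith
  obtain ⟨Gd, hGd, hsel⟩ := ts_select (fun n => (Q.S n).P)
    (fun j n ω => ((Q.S n).P.cfib (Z n) ω).entC (Y j n) (X j n) / lg (Q.ε n))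
    (fun j ν hν => Eventually.of_forall fun n ω _ =>
      (neg_nonpos.2 hν.le).trans (div_nonneg (ent_entC_nonneg _ _ _) (hlg n).le)) hmean
  exact ⟨Gd, hGd, fun ω₀ h j => hsel ω₀ h j⟩

/-- null events (no hypothesis on the tag) -/
theorem ts_event_typ (Q : CSeq) {ζ : ℕ → Type} (Z : Q.Obs ζ) (Bad : ℕ → ∀ n, (Q.S n).Ω → Prop)
    (h : ∀ j, Tendsto (fun n => (Q.S n).P.pr (Bad j n)) uf (𝓝 0)) :
    ∃ Gd, Q.Typ Gd ∧ ∀ ω₀, Q.Sel Gd ω₀ →
      ∀ j, Tendsto (fun n => ((Q.part Z ω₀).S n).P.pr (Bad j n)) uf (𝓝 0) := by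
  have hmean : ∀ j ν, 0 < ν → ∀ᶠ n in uf, (Q.S n).P.ev (fun ω =>
      ((Q.S n).P.cfib (Z n) ω).pr (Bad j n)) ≤ ν := by
    intro j ν hν
    have h3 : ∀ᶠ n in uf, (Q.S n).P.pr (Bad j n) < ν := (h j).eventually_lt_const hν
    filter_upwards [h3] with n hn
    rw [← ent_pr_tower]
    exact hn.le
  obtain ⟨Gd, hGd, hsel⟩ := ts_select (fun n => (Q.S n).P)
    (fun j n ω => ((Q.S n).P.cfib (Z n) ω).pr (Bad j n))
    (fun j ν hν => Eventually.of_forall fun n ω _ =>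
      (neg_nonpos.2 hν.le).trans (ent_pr_nonneg _ _)) hmean
  exact ⟨Gd, hGd, fun ω₀ h j => hsel ω₀ h j⟩

/-- `I(U;V|W,Z) ≤ I(U;V|W) + H(Z)` -/
theorem ts_miC_pair_le {Ω α β δ ζ : Type} [Fintype Ω] (P : FLaw Ω) (U : Ω → α) (V : Ω → β) (W : Ω → δ)
    (Z : Ω → ζ) : P.miC U V (FLaw.pair W Z) ≤ P.miC U V W + P.ent Z := by
  have a1 : P.entC Z (FLaw.pair U W) ≤ P.entC Z W :=
    ent_entC_anti P Z _ _ fun ω ω' _ _ h => congrArg Prod.snd h
  have a2 : P.entC Z (FLaw.pair V W) ≤ P.ent Z := ent_entC_le _ _ _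
  have a3 : 0 ≤ P.entC Z (FLaw.pair (FLaw.pair U V) W) := ent_entC_nonneg _ _ _
  have e1 : P.ent (FLaw.pair U (FLaw.pair W Z)) = P.ent (FLaw.pair Z (FLaw.pair U W)) := by
    refine ent_congr_ker _ _ _ fun ω ω' _ _ => ?_
    simp only [FLaw.pair, Prod.mk.injEq]
    tauto
  have e2 : P.ent (FLaw.pair V (FLaw.pair W Z)) = P.ent (FLaw.pair Z (FLaw.pair V W)) := by
    refine ent_congr_ker _ _ _ fun ω ω' _ _ => ?_
    simp only [FLaw.pair, Prod.mk.injEq]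
    tauto
  have e3 : P.ent (FLaw.pair (FLaw.pair U V) (FLaw.pair W Z)) =
      P.ent (FLaw.pair Z (FLaw.pair (FLaw.pair U V) W)) := by
    refine ent_congr_ker _ _ _ fun ω ω' _ _ => ?_
    simp only [FLaw.pair, Prod.mk.injEq]
    tauto
  have e4 : P.ent (FLaw.pair W Z) = P.ent (FLaw.pair Z W) := ent_pair_comm _ _ _
  unfold FLaw.miC
  unfold FLaw.entC at a1 a2 a3
  rw [e1, e2, e3, e4]
  linarith

/-- zero conditional informations -/
theorem ts_mi_typ (Q : CSeq) {ζ : ℕ → Type} (Z : Q.Obs ζ) (hZ : Q.toH Z 0) (α β δ : ℕ → ℕ → Type)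
    (U : ∀ j, Q.Obs (α j)) (V : ∀ j, Q.Obs (β j)) (W : ∀ j, Q.Obs (δ j))
    (h : ∀ j, Tendsto (Q.seqIC (U j) (V j) (W j)) uf (𝓝 0)) :
    ∃ Gd, Q.Typ Gd ∧ ∀ ω₀, Q.Sel Gd ω₀ →
      ∀ j, Tendsto ((Q.part Z ω₀).seqIC (U j) (V j) (W j)) uf (𝓝 0) := by
  have hlg : ∀ n, 0 < lg (Q.ε n) := fun n => tl_lg_pos (Q.pos n).1 (Q.pos n).2
  have hmean : ∀ j ν, 0 < ν → ∀ᶠ n in uf, (Q.S n).P.ev (fun ω =>
      ((Q.S n).P.cfib (Z n) ω).miC (U j n) (V j n) (W j n) / lg (Q.ε n)) ≤ ν := by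
    intro j ν hν
    have h2 : Tendsto (fun n => Q.seqIC (U j) (V j) (W j) n + Q.seqH Z n) uf (𝓝 (0 + 0)) := (h j).add hZ
    have h3 : ∀ᶠ n in uf, Q.seqIC (U j) (V j) (W j) n + Q.seqH Z n < ν :=
      h2.eventually_lt_const (by simpa using hν)
    filter_upwards [h3] with n hn
    have h4 : (Q.S n).P.ev (fun ω => ((Q.S n).P.cfib (Z n) ω).miC (U j n) (V j n) (W j n) / lg (Q.ε n)) =
        (Q.S n).P.miC (U j n) (V j n) (FLaw.pair (W j n) (Z n)) / lg (Q.ε n) := by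
      rw [ent_miC_pair_eq_avg, div_eq_mul_inv, mul_comm, ← ent_ev_mul_left]
      exact congrArg _ (funext fun ω => by rw [div_eq_mul_inv, mul_comm])
    rw [h4]
    have h5 : (Q.S n).P.miC (U j n) (V j n) (FLaw.pair (W j n) (Z n)) / lg (Q.ε n) ≤
        Q.seqIC (U j) (V j) (W j) n + Q.seqH Z n := by
      unfold CSeq.seqIC CSeq.seqH
      rw [← add_div]
      exact div_le_div_of_nonneg_right (ts_miC_pair_le _ _ _ _ _) (hlg n).le
    linarith
  obtain ⟨Gd, hGd, hsel⟩ := ts_select (fun n => (Q.S n).P)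
    (fun j n ω => ((Q.S n).P.cfib (Z n) ω).miC (U j n) (V j n) (W j n) / lg (Q.ε n))
    (fun j ν hν => Eventually.of_forall fun n ω _ =>
      (neg_nonpos.2 hν.le).trans (div_nonneg (ent_miC_nonneg _ _ _ _) (hlg n).le)) hmean
  exact ⟨Gd, hGd, fun ω₀ h j => hsel ω₀ h j⟩

/-- the surprise on a part is the surprise given the tag -/
theorem ts_hm_surC_part {Ω α β ζ : Type} [Fintype Ω] (P : FLaw Ω) (Y : Ω → α) (X : Ω → β) (Z : Ω → ζ)
    {ω₀ ω : Ω} (h0 : P.p ω₀ ≠ 0) (hω : (P.cfib Z ω₀).p ω ≠ 0) :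
    (P.cfib Z ω₀).surC Y X ω = P.surC Y (FLaw.pair X Z) ω := by
  have hpos := ent_fib_pos P Z h0
  have h2 : Z ω = Z ω₀ ∧ P.p ω ≠ 0 := (ent_cnd_supp P _ hpos).1 hω
  rw [← ent_surC_cfib P (FLaw.pair X Z) Y Z (fun a b h => congrArg Prod.snd h) h2.1 h2.2]
  refine ent_surC_congr _ _ _ _ _ ω (fun ω' hω' => ?_) (fun _ _ _ => Iff.rfl)
  have h3 : Z ω' = Z ω₀ ∧ P.p ω' ≠ 0 := (ent_cnd_supp P _ hpos).1 hω'
  simp only [FLaw.pair, Prod.mk.injEq]
  exact ⟨fun h => ⟨h, h3.1.trans h2.1.symm⟩, fun h => h.1⟩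

/-- the mean over the parts of the `L¹` distance of the normalised surprise to `d` -/
theorem ts_hm_mean {Ω α β ζ : Type} [Fintype Ω] (P : FLaw Ω) (Y : Ω → α) (X : Ω → β) (Z : Ω → ζ) (l d : ℝ) :
    P.ev (fun ω₀ => (P.cfib Z ω₀).ev (fun ω => |(P.cfib Z ω₀).surC Y X ω / l - d|)) =
      P.ev (fun ω => |P.surC Y (FLaw.pair X Z) ω / l - d|) := by
  rw [ent_ev_tower P Z (fun ω => |P.surC Y (FLaw.pair X Z) ω / l - d|)]
  refine ent_ev_congr P fun ω₀ h0 => ent_ev_congr _ fun ω hω => ?_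
  rw [ts_hm_surC_part P Y X Z h0 hω]

/-- `E |sur(Y|X,Z) - sur(Y|X)| ≤ 2 H(Z)` -/
theorem ts_hm_shift {Ω α β ζ : Type} [Fintype Ω] (P : FLaw Ω) (Y : Ω → α) (X : Ω → β) (Z : Ω → ζ) :
    P.ev (fun ω => |P.surC Y (FLaw.pair X Z) ω - P.surC Y X ω|) ≤ 2 * P.ent Z := by
  have h1 : ∀ ω, P.p ω ≠ 0 → |P.surC Y (FLaw.pair X Z) ω - P.surC Y X ω| ≤
      P.surC Z (FLaw.pair Y X) ω + P.surC Z X ω := by
    intro ω hω
    have e1 := ent_surC_swap P Y Z X hω
    have e2 : P.surC Y (FLaw.pair X Z) ω = P.surC Y (FLaw.pair Z X) ω := by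
      refine ent_surC_congr _ _ _ _ _ ω (fun ω' _ => ?_) (fun _ _ _ => Iff.rfl)
      simp only [FLaw.pair, Prod.mk.injEq]
      tauto
    have n1 := ent_surC_nonneg P Z (FLaw.pair Y X) hω
    have n2 := ent_surC_nonneg P Z X hω
    rw [e2, abs_le]
    constructor <;> linarith
  calc P.ev (fun ω => |P.surC Y (FLaw.pair X Z) ω - P.surC Y X ω|)
      ≤ P.ev (fun ω => P.surC Z (FLaw.pair Y X) ω + P.surC Z X ω) := ent_ev_mono P h1
    _ = P.entC Z (FLaw.pair Y X) + P.entC Z X := by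
        rw [ent_ev_add, ← ent_entC_eq_ev, ← ent_entC_eq_ev]
    _ ≤ 2 * P.ent Z := by linarith [ent_entC_le P Z (FLaw.pair Y X), ent_entC_le P Z X]

/-- `L¹` convergence from convergence of the mean and convergence in probability, for nonnegative variables -/
theorem ts_hm_l1 {Ω : Type} [Fintype Ω] (P : FLaw Ω) (W : Ω → ℝ) (hW : ∀ ω, P.p ω ≠ 0 → 0 ≤ W ω) (d η : ℝ)
    (hη : 0 ≤ η) :
    P.ev (fun ω => |W ω - d|) ≤ (P.ev W - d) + 2 * (η + |d| * P.pr (fun ω => η < |W ω - d|)) := by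
  have h1 : P.ev (fun ω => max (d - W ω) 0) ≤
      η * (1 - P.pr (fun ω => η < |W ω - d|)) + |d| * P.pr (fun ω => η < |W ω - d|) := by
    refine ent_ev_le_of_bad P (fun ω => η < |W ω - d|) (fun ω _ hb => ?_) (fun ω hω _ => ?_)
    · have h2 : |W ω - d| ≤ η := not_lt.1 hb
      exact max_le (by linarith [(abs_le.1 h2).1]) hη
    · exact max_le (by linarith [hW ω hω, le_abs_self d]) (abs_nonneg d)
  have h2 : P.ev (fun ω => |W ω - d|) = (P.ev W - d) + 2 * P.ev (fun ω => max (d - W ω) 0) := by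
    have h4 : P.ev (fun ω => |W ω - d|) = P.ev (fun ω => (W ω - d) + 2 * max (d - W ω) 0) := by
      refine congrArg _ (funext fun ω => ?_)
      rcases le_total (W ω) d with h | h
      · rw [abs_of_nonpos (by linarith), max_eq_left (by linarith)]
        ring
      · rw [abs_of_nonneg (by linarith), max_eq_right (by linarith)]
        ring
    rw [h4, ent_ev_add, ent_ev_sub, ent_ev_const, ent_ev_mul_left]
  have h3 : 0 ≤ η * P.pr (fun ω => η < |W ω - d|) := mul_nonneg hη (ent_pr_nonneg _ _)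
  rw [h2]
  linarith

/-- the finite bound of the mean functional -/
theorem ts_hm_bound {Ω α β ζ : Type} [Fintype Ω] (P : FLaw Ω) (Y : Ω → α) (X : Ω → β) (Z : Ω → ζ) (l d η : ℝ)
    (hl : 0 < l) (hη : 0 ≤ η) :
    P.ev (fun ω => |P.surC Y (FLaw.pair X Z) ω / l - d|) ≤
      2 * (P.ent Z / l) + (P.entC Y X / l - d) + 2 * (η + |d| * P.pr (fun ω => η < |P.surC Y X ω / l - d|)) := by
  have h1 := ts_hm_l1 P (fun ω => P.surC Y X ω / l) (fun ω hω => div_nonneg (ent_surC_nonneg P Y X hω) hl.le)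
    d η hη
  have h2 : P.ev (fun ω => P.surC Y X ω / l) = P.entC Y X / l := by
    rw [ent_entC_eq_ev, div_eq_mul_inv, mul_comm, ← ent_ev_mul_left]
    exact congrArg _ (funext fun ω => by rw [div_eq_mul_inv, mul_comm])
  rw [h2] at h1
  have h3 : P.ev (fun ω => |P.surC Y (FLaw.pair X Z) ω - P.surC Y X ω| / l) ≤ 2 * (P.ent Z / l) := by
    have h4 : P.ev (fun ω => |P.surC Y (FLaw.pair X Z) ω - P.surC Y X ω| / l) =
        P.ev (fun ω => |P.surC Y (FLaw.pair X Z) ω - P.surC Y X ω|) / l := by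
      rw [div_eq_mul_inv, mul_comm, ← ent_ev_mul_left]
      exact congrArg _ (funext fun ω => by rw [div_eq_mul_inv, mul_comm])
    rw [h4, ← mul_div_assoc]
    exact div_le_div_of_nonneg_right (ts_hm_shift P Y X Z) hl.le
  have h5 : P.ev (fun ω => |P.surC Y (FLaw.pair X Z) ω / l - d|) ≤
      P.ev (fun ω => |P.surC Y (FLaw.pair X Z) ω - P.surC Y X ω| / l + |P.surC Y X ω / l - d|) := by
    refine ent_ev_mono P fun ω _ => ?_
    have e : P.surC Y (FLaw.pair X Z) ω / l - d =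
        (P.surC Y (FLaw.pair X Z) ω - P.surC Y X ω) / l + (P.surC Y X ω / l - d) := by ring
    rw [e]
    refine (abs_add_le _ _).trans ?_
    rw [abs_div, abs_of_pos hl]
  rw [ent_ev_add] at h5
  linarith

/-- the entropy is within the `L¹` distance -/
theorem ts_hm_ent {Ω α β : Type} [Fintype Ω] (R : FLaw Ω) (Y : Ω → α) (X : Ω → β) (l d : ℝ) :
    |R.entC Y X / l - d| ≤ R.ev (fun ω => |R.surC Y X ω / l - d|) := by
  have h2 : R.entC Y X / l - d = R.ev (fun ω => R.surC Y X ω / l - d) := by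
    rw [ent_ev_sub, ent_ev_const, ent_entC_eq_ev, div_eq_mul_inv, mul_comm, ← ent_ev_mul_left]
    congr 1
    exact congrArg _ (funext fun ω => by rw [div_eq_mul_inv, mul_comm])
  rw [h2, abs_le]
  constructor
  · rw [← ent_ev_neg]
    exact ent_ev_mono R fun ω _ => neg_abs_le _
  · exact ent_ev_mono R fun ω _ => le_abs_self _

/-- Markov -/
theorem ts_hm_pr {Ω α β : Type} [Fintype Ω] (R : FLaw Ω) (Y : Ω → α) (X : Ω → β) (l d η : ℝ) (hη : 0 < η) :
    R.pr (fun ω => η < |R.surC Y X ω / l - d|) ≤ R.ev (fun ω => |R.surC Y X ω / l - d|) / η :=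
  (ent_pr_mono R fun _ _ h => le_of_lt h).trans (ent_markov R (fun _ _ => abs_nonneg _) hη)

/-- homogeneity is inherited with the same exponent: `sur(Y|X,Z) - sur(Y|X) = sur(Z|X,Y) - sur(Z|X)`, both terms are nonnegative with mean `≤ H(Z)` -/
theorem ts_homog_typ (Q : CSeq) {ζ : ℕ → Type} (Z : Q.Obs ζ) (hZ : Q.toH Z 0) (α β : ℕ → ℕ → Type)
    (Y : ∀ j, Q.Obs (α j)) (X : ∀ j, Q.Obs (β j)) (d : ℕ → ℝ) (h : ∀ j, Q.Homog (Y j) (X j) (d j)) :
    ∃ Gd, Q.Typ Gd ∧ ∀ ω₀, Q.Sel Gd ω₀ → ∀ j, (Q.part Z ω₀).Homog (Y j) (X j) (d j) := by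
  have hlg : ∀ n, 0 < lg (Q.ε n) := fun n => tl_lg_pos (Q.pos n).1 (Q.pos n).2
  have hmean : ∀ j ν, 0 < ν → ∀ᶠ n in uf, (Q.S n).P.ev (fun ω₀ => ((Q.S n).P.cfib (Z n) ω₀).ev (fun ω =>
      |((Q.S n).P.cfib (Z n) ω₀).surC (Y j n) (X j n) ω / lg (Q.ε n) - d j|)) ≤ ν := by
    intro j ν hν
    have h2 : Tendsto (fun n => 2 * Q.seqH Z n + (Q.seqHC (Y j) (X j) n - d j) + 2 * (ν / 4 + |d j| *
        (Q.S n).P.pr (fun ω => ν / 4 < |(Q.S n).P.surC (Y j n) (X j n) ω / lg (Q.ε n) - d j|))) uf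
        (𝓝 (2 * 0 + (d j - d j) + 2 * (ν / 4 + |d j| * 0))) :=
      ((Tendsto.const_mul 2 hZ).add ((h j).1.sub_const (d j))).add
        (Tendsto.const_mul 2 (((h j).2 (ν / 4) (by linarith)).const_mul |d j| |>.const_add (ν / 4)))
    have h3 := h2.eventually_lt_const (show 2 * 0 + (d j - d j) + 2 * (ν / 4 + |d j| * 0) < ν by linarith)
    filter_upwards [h3] with n hn
    rw [ts_hm_mean]
    exact (ts_hm_bound (Q.S n).P (Y j n) (X j n) (Z n) (lg (Q.ε n)) (d j) (ν / 4) (hlg n)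
      (by linarith)).trans hn.le
  obtain ⟨Gd, hGd, hsel⟩ := ts_select (fun n => (Q.S n).P)
    (fun j n ω₀ => ((Q.S n).P.cfib (Z n) ω₀).ev (fun ω =>
      |((Q.S n).P.cfib (Z n) ω₀).surC (Y j n) (X j n) ω / lg (Q.ε n) - d j|))
    (fun j ν hν => Eventually.of_forall fun n ω _ =>
      (neg_nonpos.2 hν.le).trans (ent_ev_nonneg _ fun _ _ => abs_nonneg _)) hmean
  refine ⟨Gd, hGd, fun ω₀ hω₀ j => ⟨?_, fun η hη => ?_⟩⟩
  · have h4 := hsel ω₀ hω₀ j
    refine tendsto_iff_dist_tendsto_zero.2 (squeeze_zero (fun _ => dist_nonneg) (fun n => ?_) h4)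
    rw [Real.dist_eq]
    exact ts_hm_ent ((Q.S n).P.cfib (Z n) (ω₀ n)) (Y j n) (X j n) (lg (Q.ε n)) (d j)
  · have h4 := (hsel ω₀ hω₀ j).div_const η
    rw [zero_div] at h4
    exact squeeze_zero (fun _ => ent_pr_nonneg _ _)
      (fun n => ts_hm_pr ((Q.S n).P.cfib (Z n) (ω₀ n)) (Y j n) (X j n) (lg (Q.ε n)) (d j) η hη) h4

/-- convergent conditional entropies of ARBITRARY pairs need not be inherited; their MEAN is: `H(Y|X) - H(Z) ≤ E_z H(Y|X, Z=z) ≤ H(Y|X)` (finite statement, for reference) -/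
theorem ts_entC_mean (S : CSys) {α β ζ : Type} (Y : S.Ω → α) (X : S.Ω → β) (Z : S.Ω → ζ) :
    S.P.entC Y X - S.P.ent Z ≤ S.P.ev (fun ω => (S.condOn (fun ω' => Z ω' = Z ω)).P.entC Y X) ∧
      S.P.ev (fun ω => (S.condOn (fun ω' => Z ω' = Z ω)).P.entC Y X) ≤ S.P.entC Y X := by
  have e : S.P.ev (fun ω => (S.condOn (fun ω' => Z ω' = Z ω)).P.entC Y X) = S.P.entC Y (FLaw.pair X Z) :=
    (ent_entC_pair_eq_avg S.P Y X Z).symm
  rw [e]
  refine ⟨?_, ent_entC_pair_le _ _ _ _⟩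
  have a1 : S.P.ent (FLaw.pair X Z) ≤ S.P.ent X + S.P.ent Z := ent_pair_le _ _ _
  have a2 : S.P.ent (FLaw.pair Y X) ≤ S.P.ent (FLaw.pair Y (FLaw.pair X Z)) := by
    refine ent_mono_ker _ _ _ fun ω ω' _ _ => ?_
    simp only [FLaw.pair, Prod.mk.injEq]
    tauto
  unfold FLaw.entC
  linarith

/-! ## TS-MASTER -/

theorem ts_ms_lg_atTop (Q : CSeq) : Tendsto (fun n => lg (Q.ε n)) uf atTop := by
  have h1 : Tendsto Q.ε uf (𝓝[>] 0) :=
    tendsto_nhdsWithin_iff.2 ⟨Q.lim, Eventually.of_forall fun n => (Q.pos n).1⟩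
  have h2 : Tendsto (fun n => Real.log (Q.ε n)) uf atBot := Real.tendsto_log_nhdsGT_zero.comp h1
  have h3 : (fun n => lg (Q.ε n)) = fun n => - Real.log (Q.ε n) := by
    funext n
    unfold lg
    rw [one_div, Real.log_inv]
  rw [h3]
  exact tendsto_neg_atBot_atTop.comp h2

theorem ts_ms_div_lg (Q : CSeq) (c δ : ℝ) (hδ : 0 < δ) : ∀ᶠ n in uf, c / lg (Q.ε n) ≤ δ := by
  have h := (ts_ms_lg_atTop Q).const_div_atTop c
  exact (h.eventually (gt_mem_nhds hδ)).mono fun n hn => le_of_lt hn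

theorem ts_ms_inv (κ : ℕ → ℕ) (hκ : Tendsto κ uf atTop) :
    Tendsto (fun n => 1 / ((κ n : ℝ) + 2)) uf (𝓝 0) := by
  have h1 : Tendsto (fun n => ((κ n : ℝ) + 2)) uf atTop :=
    tendsto_atTop_add_const_right _ 2 (tendsto_natCast_atTop_atTop.comp hκ)
  exact h1.const_div_atTop 1

theorem ts_ms_capPr_mono (S : CSys) {K K' : ℝ} (hK : K ≤ K') (ε : ℝ) (h0 : 0 < ε) (g : Geo) :
    S.capPr K ε g ≤ S.capPr K' ε g := by
  unfold CSys.capPr
  apply ent_pr_mono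
  intro ω _ h
  have hb : 0 ≤ ε ^ g.b := (Real.rpow_pos_of_pos h0 _).le
  have ha : 0 ≤ ε ^ g.a := (Real.rpow_pos_of_pos h0 _).le
  exact ⟨⟨h.1.1.trans (mul_le_mul_of_nonneg_right hK hb), h.1.2.trans (mul_le_mul_of_nonneg_right hK ha)⟩,
    ⟨h.2.1.trans (mul_le_mul_of_nonneg_right hK hb), h.2.2.trans (mul_le_mul_of_nonneg_right hK ha)⟩⟩

/-- **master tag** (L2.4 + L2.9 (1) + L4.4).  For a prescribed countable list of pairs with polynomially bounded child alphabets there is ONE tag `Z`, `H(Z)/ℓ → 0`, whose typical parts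
have subpower mass, are homogeneous for every pair of the list, and are cap regular at the horizon `L`.
PLAN.  Stage `k`: L2.4 for the first `k` pairs (mesh `1/k`, `σ = 1`, `θ = 1/k`), THEN `tl_cap_regularize` (`ξ = 1/k`, `K = k`, `θ = 1/k`) for the particle law of each retained bin; tag = (bin, class of `T`).
The final law is `≤ (2N/θ)` times the normalised law of its bin and supported in it: (2.18), (2.19) give entropy and surprise within `1/k + log(...)/ℓ` of the bin centre; the cap bound is relative to `τ` of the FINAL law.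
`ulim_diag` chooses `k = κ n → ∞`;  exponent `d j = ulim` of the bin centres at the selected parts. -/
theorem ts_master_tag (γ : ℝ) (h0 : 0 < γ) (h1 : γ < 1) (Q : CSeq) (L : ℝ) (hL : 0 ≤ L) (α β : ℕ → ℕ → Type)
    (Y : ∀ j, Q.Obs (α j)) (X : ∀ j, Q.Obs (β j)) (A : ℕ → ℝ) (hY : ∀ j, Q.Alph (Y j) (A j)) :
    ∃ (ζ : ℕ → Type) (Z : Q.Obs ζ) (Gd : ∀ n, (Q.S n).Ω → Prop), Q.toH Z 0 ∧ Q.Typ Gd ∧
      ∀ ω₀, Q.Sel Gd ω₀ →
        Tendsto (fun n => Real.log ((Q.S n).P.fib (Z n) (ω₀ n)) / lg (Q.ε n)) uf (𝓝 0) ∧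
        (∀ j, ∃ d, (Q.part Z ω₀).Homog (Y j) (X j) d) ∧ (Q.part Z ω₀).CapReg γ L := by
  have HS := fun k => ms_stage γ Q.B L h0 h1 hL k A
  choose M hM1 HM using HS
  let good : ℕ → ℕ → Prop := fun k n => (Q.S n).Bdd Q.B ∧ M k * Q.ε n ≤ 1 / ((k : ℝ) + 2) ∧
    (∀ j < k, ∃ F : Finset (α j n), (F.card : ℝ) ≤ (Q.ε n) ^ (- A j) ∧
      ∀ ω, 0 < (Q.S n).P.p ω → Y j n ω ∈ F) ∧
    Real.log (M k) / lg (Q.ε n) ≤ 1 / ((k : ℝ) + 2) ∧ M k / lg (Q.ε n) ≤ 1 / ((k : ℝ) + 2)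
  have hgood : ∀ k, ∀ᶠ n in uf, good k n := by
    intro k
    have hk : (0:ℝ) < 1 / ((k : ℝ) + 2) := by positivity
    have e1 : ∀ᶠ n in uf, M k * Q.ε n ≤ 1 / ((k : ℝ) + 2) := by
      have h := Q.lim.const_mul (M k)
      rw [mul_zero] at h
      exact (h.eventually (gt_mem_nhds hk)).mono fun n hn => le_of_lt hn
    have e2 : ∀ᶠ n in uf, ∀ j ∈ Finset.range k, ∃ F : Finset (α j n), (F.card : ℝ) ≤ (Q.ε n) ^ (- A j) ∧
        ∀ ω, 0 < (Q.S n).P.p ω → Y j n ω ∈ F :=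
      (eventually_all_finset _).2 fun j _ => hY j
    filter_upwards [Q.bdd, e1, e2, ts_ms_div_lg Q (Real.log (M k)) _ hk, ts_ms_div_lg Q (M k) _ hk]
      with n a1 a2 a3 a4 a5
    exact ⟨a1, a2, fun j hj => a3 j (Finset.mem_range.2 hj), a4, a5⟩
  obtain ⟨κ, hκ, hκg⟩ := ulim_diag good hgood
  have hst : ∀ n, ∃ (ζ : Type) (Z : (Q.S n).Ω → ζ) (Gd : (Q.S n).Ω → Prop) (dc : (Q.S n).Ω → ℕ → ℝ),
      good (κ n) n →
        (Q.S n).P.ent Z ≤ Real.log (M (κ n)) ∧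
        1 - 3 / ((κ n : ℝ) + 2) ≤ (Q.S n).P.pr Gd ∧
        ∀ ω₀, Gd ω₀ →
          1 / M (κ n) ≤ (Q.S n).P.fib Z ω₀ ∧
          (∀ j < κ n, 0 ≤ dc ω₀ j ∧ dc ω₀ j ≤ A j + 1 ∧
            |((Q.S n).P.cnd (fun ω => Z ω = Z ω₀)).entC (Y j n) (X j n) / lg (Q.ε n) - dc ω₀ j|
              ≤ 1 / ((κ n : ℝ) + 2) + Real.log (M (κ n)) / lg (Q.ε n) ∧
            ∀ η, 0 < η → η < 1 → 1 - 2 * η ≤ ((Q.S n).P.cnd (fun ω => Z ω = Z ω₀)).pr (fun ω =>
              |((Q.S n).P.cnd (fun ω => Z ω = Z ω₀)).surC (Y j n) (X j n) ω / lg (Q.ε n) - dc ω₀ j|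
                ≤ 1 / ((κ n : ℝ) + 2) + (Real.log (M (κ n)) + Real.log (1 / η)) / lg (Q.ε n))) ∧
          ∀ g : Geo, 0 ≤ g.b → g.b ≤ g.a → g.a ≤ L →
            ((Q.S n).condOn (fun ω => Z ω = Z ω₀)).capPr (κ n) (Q.ε n) g ≤
              (Q.ε n) ^ (wt γ g - ((Q.S n).condOn (fun ω => Z ω = Z ω₀)).tau γ (Q.ε n) L
                - 1 / ((κ n : ℝ) + 2) - M (κ n) / lg (Q.ε n)) := by
    intro n
    by_cases hg : good (κ n) n
    · obtain ⟨ζ, Z, Gd, dc, h⟩ := HM (κ n) (Q.S n) (Q.ε n) hg.1 (Q.pos n).1 (Q.pos n).2 hg.2.1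
        (fun j => α j n) (fun j => β j n) (fun j => Y j n) (fun j => X j n) hg.2.2.1
      exact ⟨ζ, Z, Gd, dc, fun _ => h⟩
    · exact ⟨Unit, fun _ => (), fun _ => True, fun _ _ => 0, fun h => absurd h hg⟩
  choose ζ Z Gd dc hst using hst
  have ha := ts_ms_inv κ hκ
  have hlg : ∀ n, 0 < lg (Q.ε n) := fun n => tl_lg_pos (Q.pos n).1 (Q.pos n).2
  refine ⟨ζ, Z, Gd, ?_, ?_, ?_⟩
  · -- entropy of the tag
    refine tendsto_of_tendsto_of_tendsto_of_le_of_le' tendsto_const_nhds ha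
      (Eventually.of_forall fun n => div_nonneg (ent_nonneg _ _) (hlg n).le) ?_
    filter_upwards [hκg] with n hn
    exact (div_le_div_of_nonneg_right (hst n hn).1 (hlg n).le).trans hn.2.2.2.1
  · -- mass of the typical set
    have h3 : Tendsto (fun n => 1 - 3 * (1 / ((κ n : ℝ) + 2))) uf (𝓝 1) := by
      have := (ha.const_mul 3).const_sub 1
      simpa using this
    refine tendsto_of_tendsto_of_tendsto_of_le_of_le' h3 tendsto_const_nhds ?_
      (Eventually.of_forall fun n => ent_pr_le_one _ _)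
    filter_upwards [hκg] with n hn
    have := (hst n hn).2.1
    have e : 3 / ((κ n : ℝ) + 2) = 3 * (1 / ((κ n : ℝ) + 2)) := by ring
    rw [e] at this
    exact this
  · intro ω₀ hsel
    have hsel' : ∀ᶠ n in uf, Gd n (ω₀ n) := hsel
    refine ⟨?_, ?_, ?_⟩
    · -- mass of the part
      have h3 : Tendsto (fun n => - (1 / ((κ n : ℝ) + 2))) uf (𝓝 0) := by
        simpa using ha.neg
      refine tendsto_of_tendsto_of_tendsto_of_le_of_le' h3 tendsto_const_nhds ?_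
        (Eventually.of_forall fun n =>
          div_nonpos_of_nonpos_of_nonneg (Real.log_nonpos (ent_fib_nonneg _ _ _) (ent_fib_le_one _ _ _))
            (hlg n).le)
      filter_upwards [hκg, hsel'] with n hn hs
      have h4 := ((hst n hn).2.2 (ω₀ n) hs).1
      have hMp : 0 < M (κ n) := lt_of_lt_of_le one_pos (hM1 _)
      have h5 : - Real.log (M (κ n)) ≤ Real.log ((Q.S n).P.fib (Z n) (ω₀ n)) := by
        rw [← Real.log_inv, ← one_div]
        exact Real.log_le_log (by positivity) h4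
      have h6 := div_le_div_of_nonneg_right h5 (hlg n).le
      have h7 := hn.2.2.2.1
      rw [neg_div] at h6
      linarith
    · -- homogeneity
      intro j
      have hj : ∀ᶠ n in uf, j < κ n := hκ.eventually (eventually_gt_atTop j)
      have hbd : UBdd (fun n => dc n (ω₀ n) j) := by
        apply UBdd.of_le 0 (A j + 1)
        filter_upwards [hκg, hsel', hj] with n hn hs hjn
        have := ((hst n hn).2.2 (ω₀ n) hs).2.1 j hjn
        exact ⟨this.1, this.2.1⟩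
      have hd := ulim_tendsto _ hbd
      refine ⟨ulim (fun n => dc n (ω₀ n) j), ?_, ?_⟩
      · -- entropy
        have h3 : Tendsto (fun n => ((Q.part Z ω₀).seqHC (Y j) (X j) n - dc n (ω₀ n) j)) uf (𝓝 0) := by
          apply squeeze_zero_norm' (a := fun n => 2 * (1 / ((κ n : ℝ) + 2)))
          · filter_upwards [hκg, hsel', hj] with n hn hs hjn
            have h4 := (((hst n hn).2.2 (ω₀ n) hs).2.1 j hjn).2.2.1
            have h7 := hn.2.2.2.1
            rw [Real.norm_eq_abs]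
            refine le_trans h4 ?_
            linarith
          · simpa using ha.const_mul 2
        have h4 := h3.add hd
        simp only [sub_add_cancel, zero_add] at h4
        exact h4
      · intro η hη
        rw [tendsto_order]
        constructor
        · intro b hb
          exact Eventually.of_forall fun n => lt_of_lt_of_le hb (ent_pr_nonneg _ _)
        · intro δ hδ
          obtain ⟨η₀, hη₀, hη₀1, hη₀δ⟩ : ∃ η₀ : ℝ, 0 < η₀ ∧ η₀ < 1 ∧ 2 * η₀ < δ := by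
            refine ⟨min (δ / 4) (1 / 2), by positivity, lt_of_le_of_lt (min_le_right _ _) (by norm_num), ?_⟩
            have := min_le_left (δ / 4) (1 / 2 : ℝ)
            linarith
          have e1 : ∀ᶠ n in uf, 1 / ((κ n : ℝ) + 2) < η / 4 := ha.eventually (gt_mem_nhds (by positivity))
          have e2 := ts_ms_div_lg Q (Real.log (1 / η₀)) (η / 8) (by positivity)
          have e3 : ∀ᶠ n in uf, |dc n (ω₀ n) j - ulim (fun n => dc n (ω₀ n) j)| < η / 4 := by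
            have := (tendsto_sub_nhds_zero_iff.2 hd).abs
            rw [abs_zero] at this
            exact this.eventually (gt_mem_nhds (by positivity))
          filter_upwards [hκg, hsel', hj, e1, e2, e3] with n hn hs hjn a1 a2 a3
          have h4 := (((hst n hn).2.2 (ω₀ n) hs).2.1 j hjn).2.2.2 η₀ hη₀ hη₀1
          have h7 := hn.2.2.2.1
          have h8 : ((Q.part Z ω₀).S n).P.pr (fun ω => η < |((Q.part Z ω₀).S n).P.surC (Y j n) (X j n) ω
              / lg ((Q.part Z ω₀).ε n) - ulim (fun n => dc n (ω₀ n) j)|)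
              ≤ 1 - ((Q.S n).P.cnd (fun ω => Z n ω = Z n (ω₀ n))).pr (fun ω =>
              |((Q.S n).P.cnd (fun ω => Z n ω = Z n (ω₀ n))).surC (Y j n) (X j n) ω / lg (Q.ε n)
                - dc n (ω₀ n) j|
                ≤ 1 / ((κ n : ℝ) + 2) + (Real.log (M (κ n)) + Real.log (1 / η₀)) / lg (Q.ε n)) := by
            rw [← ent_pr_not]
            apply ent_pr_mono
            intro ω _ hω hcon
            have hω' : η < |((Q.S n).P.cnd (fun ω => Z n ω = Z n (ω₀ n))).surC (Y j n) (X j n) ω / lg (Q.ε n)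
                - ulim (fun n => dc n (ω₀ n) j)| := hω
            have h9 := abs_sub_le (((Q.S n).P.cnd (fun ω => Z n ω = Z n (ω₀ n))).surC (Y j n) (X j n) ω
              / lg (Q.ε n)) (dc n (ω₀ n) j) (ulim (fun n => dc n (ω₀ n) j))
            rw [add_div] at hcon
            linarith
          linarith
    · -- cap regularity
      intro K η hη
      have e1 : ∀ᶠ n in uf, 1 / ((κ n : ℝ) + 2) < η / 2 := ha.eventually (gt_mem_nhds (by positivity))
      have e2 : ∀ᶠ n in uf, K ≤ (κ n : ℝ) :=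
        (tendsto_natCast_atTop_atTop.comp hκ).eventually (eventually_ge_atTop K)
      filter_upwards [hκg, hsel', e1, e2] with n hn hs a1 a2
      intro g hb hba haL
      have h4 := ((hst n hn).2.2 (ω₀ n) hs).2.2 g hb hba haL
      have h7 := hn.2.2.2.2
      refine (ts_ms_capPr_mono _ a2 _ (Q.pos n).1 g).trans (h4.trans ?_)
      apply Real.rpow_le_rpow_of_exponent_ge (Q.pos n).1 (Q.pos n).2.le
      have h10 : (Q.part Z ω₀).seqTau γ L n
          = ((Q.S n).condOn (fun ω => Z n ω = Z n (ω₀ n))).tau γ (Q.ε n) L := rfl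
      rw [h10]
      linarith

/-- **master selection** (glue): one part that is homogeneous for the list, cap regular, keeps countably many saturations and zero conditional entropies -/
theorem ts_master (γ : ℝ) (h0 : 0 < γ) (h1 : γ < 1) (Q : CSeq) (L : ℝ) (hL : 0 ≤ L) (α β : ℕ → ℕ → Type)
    (Y : ∀ j, Q.Obs (α j)) (X : ∀ j, Q.Obs (β j)) (A : ℕ → ℝ) (hY : ∀ j, Q.Alph (Y j) (A j))
    (K t Lh : ℕ → ℝ) (ht : ∀ i, 0 < t i) (htL : ∀ i, t i ≤ Lh i) (Γ : ℕ → ℕ → Type) (G : ∀ i, Q.Obs (Γ i))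
    (geo : ∀ i n, Γ i n → Geo) (hG : ∀ i, Q.IsLab (K i) (t i) (Lh i) (G i) (geo i))
    (hsat : ∀ i, Tendsto (Q.dfc γ (t i) (Lh i) (G i) (geo i)) uf (𝓝 0))
    (α' β' : ℕ → ℕ → Type) (Y' : ∀ j, Q.Obs (α' j)) (X' : ∀ j, Q.Obs (β' j))
    (hz : ∀ j, Q.toHC (Y' j) (X' j) 0) :
    ∃ E : ∀ n, (Q.S n).Ω → Prop,
      (∀ j, ∃ d, (Q.condOn E).Homog (Y j) (X j) d) ∧ (Q.condOn E).CapReg γ L ∧
      (∀ i, Tendsto ((Q.condOn E).dfc γ (t i) (Lh i) (G i) (geo i)) uf (𝓝 0)) ∧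
      (∀ j, (Q.condOn E).toHC (Y' j) (X' j) 0) := by
  obtain ⟨ζ, Z, Gd, hZ, hGd, hm⟩ := ts_master_tag γ h0 h1 Q L hL α β Y X A hY
  obtain ⟨Gd1, hGd1, hs⟩ := ts_sat_typ γ h0 h1 Q Z hZ K t Lh ht htL Γ G geo hG hsat
  obtain ⟨Gd2, hGd2, hz'⟩ := ts_zero_typ Q Z α' β' Y' X' hz
  obtain ⟨Gd', hGd', hall⟩ := ts_typ_inter (fun n => (Q.S n).P)
    (fun i => match i with
      | 0 => Gd
      | 1 => Gd1
      | _ => Gd2)
    (fun i => match i with
      | 0 => hGd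
      | 1 => hGd1
      | _ + 2 => hGd2)
  obtain ⟨ω₀, hω⟩ := ts_pick (fun n => (Q.S n).P) Gd' (fun _ _ => True) hGd' 1 one_pos
    (Eventually.of_forall fun n => by
      have : (Q.S n).P.pr (fun _ => True) = 1 := by
        unfold FLaw.pr
        simp [(Q.S n).P.sum_one]
      rw [this])
  have hsel := hall ω₀ (hω.mono fun n h => h.1)
  refine ⟨fun n ω => Z n ω = Z n (ω₀ n), (hm ω₀ (hsel 0)).2.1, (hm ω₀ (hsel 0)).2.2, hs ω₀ (hsel 1),
    hz' ω₀ (hsel 2)⟩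

end Claimed.Agent.R255
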