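import Claimed.Agent.R255.Cl.Dich.Least
import Claimed.Agent.R255.Cl.Dich.Mesh
import Claimed.Agent.R255.Cl.Dich.Iso
import Claimed.Agent.R255.Cl.Dich.MPre
import Claimed.Agent.R255.Cl.Dich.MSel
import Claimed.Agent.R255.Cl.Dich.MExt
import Claimed.Agent.R255.Cl.Dich.Grow

/-!
# Row 255 (BR paper), chapter DICHOTOMY: top glue      (architect helper40)

`dc_dichotomy` = Propositions 4.6 + 4.7 + 4.8 + Remark 4.9: if `γ < β` there is an isotropic or a matched extremiser.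
-/

set_option autoImplicit false

namespace Claimed.Agent.R255

open Filter Topology

/-- the matched alternative -/
theorem dc_matched (γ m : ℝ) (h0 : 0 < γ) (h1 : γ < 1) (hm : 0 < m) (hl : IsLeast (AspSet γ) m) :
    ∃ M : Matched γ m, M.Good := by
  obtain ⟨P⟩ := dc_spath γ m h0 h1 hl.1
  obtain ⟨M₀, hM₀⟩ := dc_mpre h0 h1 hm hl P
  obtain ⟨M, hM, hcap, hhom⟩ := dc_sel_matched h0 h1 hm M₀ hM₀
  have hsat := dc_sat_ext h0 h1 hm M hM
  have hpred := dc_pred_ext hm M hM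
  have hhom' := dc_hom_ext hm M hhom
  obtain ⟨κ, hκ, hg⟩ := dc_growth h0 h1 hm hl M hsat
  refine ⟨{ M with κ := κ, κpos := hκ }, ?_⟩
  exact
    { sat := hsat
      pred := hpred
      growth := hg
      hom := hhom'
      cap := hcap }

/-- **Propositions 4.6, 4.7, 4.8** -/
theorem dc_dichotomy (γ : ℝ) (h0 : 0 < γ) (h1 : γ < 1) (hβ : γ < beta γ) :
    (∃ s : ℝ, Nonempty (Iso γ s)) ∨ (∃ m : ℝ, 0 < m ∧ ∃ M : Matched γ m, M.Good) := by
  obtain ⟨m, hl⟩ := dc_least γ h0 h1 hβ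
  rcases (hl.1.1).eq_or_lt with h | h
  · left
    exact dc_iso γ h0 h1 (h ▸ hl.1)
  · right
    exact ⟨m, h, dc_matched γ m h0 h1 h hl⟩

end Claimed.Agent.R255
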