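import Claimed.Agent.R255.Cl.ToolsFin
import Claimed.Agent.R255.Cl.Dich
import Claimed.Agent.R255.Plane.Top
import Claimed.Agent.R255.Iso.Core

/-!
# Row 255 (BR paper), classical part (Secs 4-8): TOP CONTRACTS AND GLUE      (chief helper216)

`classical_growth : UnivBound γ γ` = Theorem 4.2 in its uniform finite form (4.5).  Consumers: END227 (Kakeya maximal, `t = L = 1`, `a = b = 0`), Secs 10-11.
CONTRACTS (each = one chapter; owners replace the `sorry` by a citation of their file):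
* `univBound_beta`   (S4a)  the infimum defining `beta γ` is attained: (4.5) holds with `β' = beta γ`  (needs `UnivBound γ 2`, (4.4)).
* `cl_dichotomy`     (S4a + S4b: L4.3-4.5, P4.6-4.8, R4.9)   `γ < β` is not even needed in the paper, but we may use it.
* `cl_iso_excl`      (S5: P5.1)
* `cl_matched_excl`  (S6 + S7 + S8)
-/

set_option autoImplicit false

namespace Claimed.Agent.R255

theorem UnivBound.mono {γ β' β'' : ℝ} (h : β' ≤ β'') (H : UnivBound γ β') : UnivBound γ β'' := by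
  intro K B Lmax tmin ν ht hν
  obtain ⟨ε₀, h0, h1, H'⟩ := H K B Lmax tmin ν ht hν
  refine ⟨ε₀, h0, h1, fun ε he he' t L h2 h3 h4 S Γ G geo hB hG => ?_⟩
  have := H' ε he he' t L h2 h3 h4 S Γ G geo hB hG
  have ht' : 0 < t := lt_of_lt_of_le ht h2
  nlinarith

/-- (4.5) -/
theorem univBound_beta (γ : ℝ) (h0 : 0 < γ) (h1 : γ < 1) : UnivBound γ (beta γ) :=
  tl_univBound_beta γ h0 h1

/-- Propositions 4.6, 4.7, 4.8 -/
theorem cl_dichotomy (γ : ℝ) (h0 : 0 < γ) (h1 : γ < 1) (hβ : γ < beta γ) :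
    (∃ s : ℝ, Nonempty (Iso γ s)) ∨ (∃ m : ℝ, 0 < m ∧ ∃ M : Matched γ m, M.Good) :=
  dc_dichotomy γ h0 h1 hβ

/-- Proposition 5.1 -/
theorem cl_iso_excl (γ : ℝ) (h0 : 0 < γ) (h1 : γ < 1) (hβ : γ < beta γ) (s : ℝ) (J : Iso γ s) :
    False :=
  iso_excl γ h0 h1 hβ (univBound_beta γ h0 h1) s J

/-- Sections 6, 7, 8 -/
theorem cl_matched_excl (γ : ℝ) (h0 : 0 < γ) (h1 : γ < 1) (hβ : γ < beta γ) (m : ℝ) (hm : 0 < m)
    (M : Matched γ m) (hM : M.Good) : False :=
  pl_matched_excl γ h0 h1 hβ m hm M hM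

theorem beta_le (γ : ℝ) (h0 : 0 < γ) (h1 : γ < 1) : beta γ ≤ γ := by
  by_contra h
  push Not at h
  rcases cl_dichotomy γ h0 h1 h with ⟨s, ⟨J⟩⟩ | ⟨m, hm, M, hM⟩
  · exact cl_iso_excl γ h0 h1 h s J
  · exact cl_matched_excl γ h0 h1 h m hm M hM

/-- **Theorem 4.2** (positive-transport growth), uniform finite form -/
theorem classical_growth (γ : ℝ) (h0 : 0 < γ) (h1 : γ < 1) : UnivBound γ γ :=
  (univBound_beta γ h0 h1).mono (beta_le γ h0 h1)

end Claimed.Agent.R255
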