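-- KEEP
import Claimed.Agent.R255.Cl.ToolsFin

/-!
# Row 255 (BR paper), classical part, chapter DICHOTOMY (Sec. 4.4-4.5: P4.6, P4.7, P4.8), definitions      (architect helper40; prefix `dc_`)

DESIGN (differs from the paper in bookkeeping only):
* every label of a FIXED shape `(b, a)` is an observation `G : Ω → LV`, `LV = Geo × ℕ`, read through `rd b a` (the shape is imposed by the read-out; the `ℕ` carries extra tags).
  `ThN G` : the angle is normalised to `[0, π)`.
* a label at duration `t` is a label at every duration `r ≤ t` with the SAME read-out (its own time representative `tc`): there is no transport lemma.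
* `NS γ ε e δ` : there is a NORMALISED system (unit box, enlargement `1`, duration `1`, shape `(0, e)`, horizon `1 + e`) at precision `ε` with deficit `≤ δ`.
  `AspSet γ` : the aspects `e` of saturated normalised sequences, in FINITE form (`∀ δ ε₀ ∃ ε < ε₀, NS γ ε e δ`): no diagonal argument is ever needed for it.
* `Ach γ L D b a` : finite form of "there is a sequence carrying saturated labels of shapes `(b u, a u)` at all durations `u ∈ D`" (`D` a finite set).
* `SPath γ m` : the saturated path of P4.7 on the dyadic times.  NOTHING else is tracked: coherence (4.9) and the zero orientation entropy are THEOREMS (`dc_coh`, `dc_zoe`) about arbitrary near-saturated labels on one system (the resampling is done inside their proofs).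
Definitions are FROZEN (ask helper40).
-/

set_option autoImplicit false

namespace Claimed.Agent.R255

open Filter Topology
open Classical

/-- label values: a geometric read-out and a tag -/
abbrev LV := Geo × ℕ

/-- the read-out of a label of fixed shape `(b, a)` -/
def rd (b a : ℝ) : LV → Geo := fun g => { g.1 with b := b, a := a }

/-- the angle of a label value -/
def LVth (g : LV) : ℝ := g.1.th

/-- normalised angles -/
def ThN {Ω : Type} (G : Ω → LV) : Prop := ∀ ω, 0 ≤ (G ω).1.th ∧ (G ω).1.th < Real.pi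

/-- separation depth of two frames with angle difference `θ`, clipped to `[0, e]`: the largest `v ≤ e` with `|sin θ| ≤ ε^v` -/
noncomputable def sepd (ε e θ : ℝ) : ℝ :=
  if Real.sin θ = 0 then e else min e (Real.log |Real.sin θ| / Real.log ε)

/-- the orientation cell of depth `d` of a label -/
noncomputable def ori {Ω : Type} (ε d : ℝ) (G : Ω → LV) : Ω → ℤ := fun ω => tcell ε d (G ω).1.th

/-- a normalised system of aspect `e` with deficit at most `δ` at precision `ε` -/
def NS (γ ε e δ : ℝ) : Prop :=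
  ∃ (S : CSys) (G : S.Ω → LV), S.Bdd 1 ∧ ThN G ∧ S.IsLabel 1 ε 1 (1 + e) G (rd 0 e) ∧
    S.deficit γ ε 1 (1 + e) G (rd 0 e) ≤ δ

/-- the aspects of saturated normalised sequences -/
def AspSet (γ : ℝ) : Set ℝ :=
  {e | 0 ≤ e ∧ ∀ δ : ℝ, 0 < δ → ∀ ε₀ : ℝ, 0 < ε₀ → ∃ ε : ℝ, 0 < ε ∧ ε < ε₀ ∧ ε < 1 ∧ NS γ ε e δ}

/-- the dyadic times in `(0, 1]` -/
def Dy : Set ℝ := {u | ∃ k j : ℕ, 0 < j ∧ j ≤ 2 ^ k ∧ u = (j : ℝ) / 2 ^ k}

/-- the dyadic mesh of level `k` -/
noncomputable def DyK (k : ℕ) : Finset ℝ := (Finset.Icc 1 (2 ^ k)).image (fun j : ℕ => (j : ℝ) / 2 ^ k)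

/-- one system carrying labels of shapes `(b u, a u)` at the durations `u ∈ D`, horizon `L`, all deficits `≤ ν` -/
def PSys (γ ε L ν : ℝ) (D : Finset ℝ) (b a : ℝ → ℝ) (S : CSys) (lab : ℝ → S.Ω → LV) : Prop :=
  S.Bdd 1 ∧ ∀ u ∈ D, ThN (lab u) ∧ S.IsLabel 1 ε u L (lab u) (rd (b u) (a u)) ∧
    S.deficit γ ε u L (lab u) (rd (b u) (a u)) ≤ ν

/-- achievable shape functions on a finite set of durations -/
def Ach (γ L : ℝ) (D : Finset ℝ) (b a : ℝ → ℝ) : Prop :=
  ∀ ν : ℝ, 0 < ν → ∀ ε₀ : ℝ, 0 < ε₀ → ∃ ε : ℝ, 0 < ε ∧ ε < ε₀ ∧ ε < 1 ∧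
    ∃ (S : CSys) (lab : ℝ → S.Ω → LV), PSys γ ε L ν D b a S lab

/-- the nesting relations of P4.7 on a set of durations -/
def Nested (D : Set ℝ) (b a : ℝ → ℝ) : Prop :=
  ∀ r ∈ D, ∀ t ∈ D, r < t → b t ≤ b r ∧ a r + r ≤ a t + t

/-- the saturated path of Proposition 4.7 -/
structure SPath (γ m : ℝ) where
  Q : CSeq
  lab : ℝ → Q.Obs (fun _ => LV)
  b : ℝ → ℝ
  a : ℝ → ℝ
  bdd : ∀ᶠ n in uf, (Q.S n).Bdd 1
  thn : ∀ u ∈ Dy, ∀ᶠ n in uf, ThN (lab u n)
  isLab : ∀ u ∈ Dy, ∀ᶠ n in uf, (Q.S n).IsLabel 1 (Q.ε n) u (1 + m) (lab u n) (rd (b u) (a u))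
  sat : ∀ u ∈ Dy, Tendsto (fun n => (Q.S n).deficit γ (Q.ε n) u (1 + m) (lab u n) (rd (b u) (a u))) uf (𝓝 0)
  b_one : b 1 = 0
  a_one : a 1 = m
  nest : Nested Dy b a

/-- the coherence constant `K_γ` of (4.9) -/
noncomputable def Kc (γ : ℝ) : ℝ := 3 / γ

/-- the width change between two durations -/
def Dw (b a : ℝ → ℝ) (r t : ℝ) : ℝ := |b r - b t| + |a r - a t| + |t - r|

/-- a strictly increasing chain `u 0 < u 1 < ... < u N` of dyadic durations -/
def DyChain (u : ℕ → ℝ) (N : ℕ) : Prop := (∀ j, j ≤ N → u j ∈ Dy) ∧ ∀ j, j < N → u j < u (j + 1)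

/-- `d` is a coherent depth for the chain `u 0 < ... < u N`: `d = 0`, or `d` lies below the coherence depth (4.9) of every link -/
def CohDepth (K : ℝ) (b a : ℝ → ℝ) (u : ℕ → ℝ) (N : ℕ) (d : ℝ) : Prop :=
  d = 0 ∨ (0 < d ∧ ∀ j, j < N →
    d < min (a (u j) - b (u j)) (a (u (j + 1)) - b (u (j + 1))) - K * Dw b a (u j) (u (j + 1)))

/-! ## pieces of `Matched.Good` -/

namespace Matched

variable {γ m : ℝ} (M : Matched γ m)

/-- saturation at the duration `u` -/
def SatAt (u : ℝ) : Prop :=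
  Tendsto (fun n => 2 * M.b u + (1 - γ) * m * u - M.Q.seqI M.Q.T (M.O (plane m (M.b u) u)) n
    + 2 * M.Q.seqHC (M.Q.C u) M.Q.T n - M.Q.seqTau γ (1 + m) n) uf (𝓝 (beta γ * u))

/-- prediction of the orientation at the duration `u` -/
def PredAt (u : ℝ) : Prop := M.Q.toHC (M.Rd (m * u)) (M.Q.pr2 M.Q.T (M.Q.C u)) 0

/-- homogeneity of a pair of lists -/
def HomAt (zs zs' : List Sym) : Prop :=
  (∃ d, M.Q.Homog (M.OL zs) (M.OL zs') d) ∧ (∃ d, M.Q.Homog (M.OL zs) (M.Q.pr2 M.Q.T (M.OL zs')) d)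

/-- the matched path before selection: saturation and prediction at the dyadic durations -/
def Pre : Prop := ∀ u ∈ Dy, u < 1 → M.SatAt u ∧ M.PredAt u

end Matched

/-- rational symbols -/
def Sym.IsQ : Sym → Prop
  | Sum.inl z => (∃ q : ℚ, z.LX = q) ∧ (∃ q : ℚ, z.LY = q) ∧ (∃ q : ℚ, z.LW = q) ∧ (∃ q : ℚ, z.LZ = q) ∧
      ∃ q : ℚ, z.v = q
  | Sum.inr v => (∃ q : ℚ, v.1 = q) ∧ ∃ q : ℚ, v.2 = q

/-! ## two proved helpers used everywhere -/

/-- errors `C / ℓ` are small for small `ε` -/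
theorem dc_small_err (C ν : ℝ) (hν : 0 < ν) :
    ∃ ε₀ : ℝ, 0 < ε₀ ∧ ε₀ < 1 ∧ ∀ ε : ℝ, 0 < ε → ε < ε₀ → C / lg ε ≤ ν := by
  refine ⟨Real.exp (-(|C| / ν + 1)), Real.exp_pos _, ?_, fun ε h0 h1 => ?_⟩
  · rw [Real.exp_lt_one_iff]
    have : 0 ≤ |C| / ν := by positivity
    linarith
  · have h2 : |C| / ν + 1 < lg ε := by
      unfold lg
      rw [one_div, Real.log_inv]
      have := (Real.log_lt_iff_lt_exp h0).mpr h1
      linarith
    have h3 : 0 ≤ |C| / ν := by positivity
    have hl : 0 < lg ε := by linarith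
    rw [div_le_iff₀ hl]
    have h4 : |C| < ν * lg ε := by
      have : |C| / ν < lg ε := by linarith
      rw [div_lt_iff₀ hν] at this
      linarith
    exact le_trans (le_abs_self C) h4.le

/-- some point of the support is at most the mean -/
theorem dc_exists_le_ev {Ω : Type} [Fintype Ω] (P : FLaw Ω) (f : Ω → ℝ) :
    ∃ ω, 0 < P.p ω ∧ f ω ≤ P.ev f := by
  by_contra h
  push Not at h
  have h1 : ∑ ω, P.p ω * P.ev f < ∑ ω, P.p ω * f ω := by
    apply Finset.sum_lt_sum
    · intro ω _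
      rcases (P.nonneg ω).eq_or_lt with h0 | h0
      · rw [← h0]; simp
      · exact mul_le_mul_of_nonneg_left (h ω h0).le h0.le
    · have : ∃ ω, 0 < P.p ω := by
        by_contra hc
        push Not at hc
        have : ∑ ω, P.p ω ≤ 0 := Finset.sum_nonpos fun ω _ => hc ω
        rw [P.sum_one] at this
        linarith
      obtain ⟨ω, hω⟩ := this
      exact ⟨ω, Finset.mem_univ _, mul_lt_mul_of_pos_left (h ω hω) hω⟩
  rw [← Finset.sum_mul, P.sum_one, one_mul] at h1
  exact lt_irrefl _ h1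


end Claimed.Agent.R255
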